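import Vale.Agent.P305GH.Main

/-!
# The accounting of a phase
-/

set_option linter.all false

namespace Vale.Agent.P305GM

/-- The counters: `w` weight of the junk, `cJ` junk copies, `c` commits, `st` starving sets,
`ls` lost inner vertices, `β` the credit for losses, `Mt` the mass of all batches. -/
structure Acc (U Vm al κ : ℕ) (w : ℤ) (cJ c st ls β Mt : ℕ) : Prop where
  wt : w = 2 * c + st - ls
  vol : st * Vm ≤ cJ
  loss : U * ls + β ≤ al * cJ + 2 * κ * c + U * st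
  mass : Mt ≤ 2 * U * c + U * st + al * cJ

variable {U Vm al κ cJ c st ls β Mt Z : ℕ} {w : ℤ}

theorem Acc.init (U Vm al κ : ℕ) : Acc U Vm al κ 0 0 0 0 0 0 0 := ⟨by simp, by simp, by simp, by simp⟩

/-- The junk is paid by the commits. -/
theorem Acc.junk (h : Acc U Vm al κ w cJ c st ls β Mt) (hZ : (cJ : ℤ) ≤ Z * w) (hV : 64 * Z ≤ Vm)
    (h0 : 0 < Z) : cJ ≤ 4 * Z * c ∧ 16 * st ≤ c := by
  have h1 : (cJ : ℤ) ≤ Z * (2 * c + st) := hZ.trans (mul_le_mul_of_nonneg_left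
    (by rw [h.wt]; omega) (Int.natCast_nonneg _))
  have h2 : cJ ≤ Z * (2 * c + st) := by exact_mod_cast h1
  have h3 : st * (64 * Z) ≤ cJ := (Nat.mul_le_mul_left _ hV).trans h.vol
  have h4 : cJ ≤ 4 * Z * c := by nlinarith
  refine ⟨h4, Nat.le_of_mul_le_mul_left (c := 4 * Z) ?_ (by omega)⟩
  nlinarith

/-- The losses are small. -/
theorem Acc.lost (h : Acc U Vm al κ w cJ c st ls β Mt) (hZ : (cJ : ℤ) ≤ Z * w) (hV : 64 * Z ≤ Vm)
    (h0 : 0 < Z) (hU : 4 * al * Vm ≤ U) (hκ : κ ≤ al) (ha : 0 < al) :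
    8 * ls ≤ c ∧ 8 * β ≤ U * c ∧ Mt ≤ 3 * U * c := by
  obtain ⟨h1, h2⟩ := h.junk hZ hV h0
  have h3 : 256 * al * Z ≤ U := le_trans (by nlinarith) hU
  have h4 : 64 * (al * cJ) ≤ U * c := by
    calc 64 * (al * cJ) ≤ 64 * (al * (4 * Z * c)) := by gcongr
      _ = 256 * al * Z * c := by ring
      _ ≤ U * c := Nat.mul_le_mul_right _ h3
  have h5 : 128 * (2 * κ * c) ≤ U * c := by
    calc 128 * (2 * κ * c) = 256 * κ * 1 * c := by ring
      _ ≤ 256 * al * Z * c := by gcongr; exact h0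
      _ ≤ U * c := Nat.mul_le_mul_right _ h3
  have h6 : 16 * (U * st) ≤ U * c := by
    rw [mul_left_comm]; exact Nat.mul_le_mul_left _ h2
  have h7 := h.loss
  have h8 := h.mass
  have hU0 : 0 < U := lt_of_lt_of_le (by positivity) h3
  refine ⟨Nat.le_of_mul_le_mul_left (c := U) ?_ hU0, by omega, ?_⟩
  · rw [mul_left_comm]; omega
  · have : 2 * U * c = 2 * (U * c) := by ring
    have : 3 * U * c = 3 * (U * c) := by ring
    omega

end Vale.Agent.P305GM
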