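import Vale.Agent.P305BX.Maj

/-!
# Admissible overheads are closed under the usual operations
-/

namespace Vale.Agent.P305GM

open Vale.Agent.P305E Vale.Agent.P305BX

/-- Monotone functions that are subpolynomial in `2 ^ b`. -/
structure Ov (g : ℕ → ℕ) : Prop where
  sub : ∀ a, Sub fun N => g (a * Nat.size N + a)
  mono : Monotone g

variable {g g' : ℕ → ℕ}

theorem Ov.const (c : ℕ) : Ov fun _ => c := ⟨fun _ => Sub.const c, monotone_const⟩

theorem Ov.id : Ov fun b => b :=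
  ⟨fun a => ((Sub.const a).mul Sub.size).add (Sub.const a), monotone_id⟩

theorem Ov.add (h : Ov g) (h' : Ov g') : Ov fun b => g b + g' b :=
  ⟨fun a => (h.sub a).add (h'.sub a), h.mono.add h'.mono⟩

theorem Ov.mul (h : Ov g) (h' : Ov g') : Ov fun b => g b * g' b :=
  ⟨fun a => (h.sub a).mul (h'.sub a), fun _ _ e => Nat.mul_le_mul (h.mono e) (h'.mono e)⟩

theorem Ov.pow (h : Ov g) (k : ℕ) : Ov fun b => g b ^ k :=
  ⟨fun a => (h.sub a).pow k, fun _ _ e => Nat.pow_le_pow_left (h.mono e) k⟩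

theorem Ov.lin (h : Ov g) (p q : ℕ) : Ov fun b => g (p * b + q) :=
  ⟨fun a => (h.sub (p * a + q)).mono fun N _ => h.mono (by nlinarith [Nat.zero_le (q * N.size)]),
    fun _ _ e => h.mono (Nat.add_le_add_right (Nat.mul_le_mul_left _ e) _)⟩

theorem Ov.affine (p q : ℕ) : Ov fun b => p * b + q := Ov.id.lin p q

theorem Ov.hq (c d p q : ℕ) : Ov fun b => 2 ^ (c * hq (p * b + q) + d) :=
  ⟨sub_hq c d p q, mono_hq c d p q⟩

/-- A monotone function below an admissible one is admissible. -/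
theorem Ov.of_le (h : Ov g) (hm : Monotone g') (e : ∀ b, g' b ≤ g b) : Ov g' :=
  ⟨fun a => (h.sub a).mono fun _ _ => e _, hm⟩

/-- **Parameters.** For an admissible `g` and all `k`, `p`, `q₀` there are `c` and `q ≥ q₀` such
that the computable number `Γ = 2 ^ (c * sq (p * b + q))` bounds `g (p * b + q)`, its `k`-th power
is at most `2 ^ (p * b + q)`, and `Γ` is bounded by an admissible function. -/
theorem Ov.param (h : Ov g) (k p q₀ : ℕ) : ∃ c q G, q₀ ≤ q ∧ Ov G ∧ ∀ b,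
    g (p * b + q) ≤ 2 ^ (c * P305BX.sq (p * b + q)) ∧
      k * (c * P305BX.sq (p * b + q)) ≤ p * b + q ∧ 2 ^ (c * P305BX.sq (p * b + q)) ≤ G b := by
  obtain ⟨c, hc⟩ := maj h.sub h.mono
  obtain ⟨z, hz⟩ : ∃ z, z = 2 ^ 2 ^ (k * c) := ⟨_, rfl⟩
  refine ⟨c, q₀ + 2 + z, _, by omega, Ov.hq c 0 p (q₀ + 2 + z),
    fun b => ⟨hc _ (by omega), ?_, ?_⟩⟩
  · rw [← mul_assoc]
    exact sq_small _ (by omega)
  · exact Nat.pow_le_pow_right (by omega) (Nat.mul_le_mul_left _ (sq_le_hq _))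

end Vale.Agent.P305GM
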