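import Vale.Agent.P305GM.Ov
import Vale.Agent.P305GL.Defs

/-!
# The parameters of a phase
-/

namespace Vale.Agent.P305GM

open Vale.Agent.P305 Vale.Agent.P305E Vale.Agent.P305C Vale.Agent.P305O Vale.Agent.P305GL

variable {β : Type} [Rep β]

/-- The computation of the parameters. -/
structure ParOK (E : Env β) (f : ℕ → ℕ → ℕ → Arr (List ℕ) → M Pr) (c : ℕ) (G : ℕ → ℕ) :
    Prop where
  impl : Impl fun p : ℕ × ℕ × ℕ × Arr (List ℕ) => f p.1 p.2.1 p.2.2.1 p.2.2.2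
  ov : Ov G
  spec : ∀ (B b j n : ℕ) (A : ℕ → ℕ → Prop) (adj : Arr (List ℕ)) (R : ℕ), Adj3 n A adj →
    n ≤ 2 ^ b → 2 ^ (c * (b + 1)) ≤ B → 2 ^ 11 * G b ^ 2 ≤ 2 ^ j → 2 ^ j ≤ n →
    Tri ⟨B, true⟩ (f b (2 ^ j) n adj) fun p t => t = 0 ∧ ∃ x : Pm, x.toPr = p ∧ x.OK E ∧
      x.n = n ∧ x.A = A ∧ x.B = B ∧ x.R = R ∧ x.K = 2 ^ j ∧ b ≤ x.b ∧ x.Γ ≤ G b ∧
      2 ^ j = 2 ^ 11 * x.Γ ^ 2 * x.c ∧ x.U * x.c ≤ 64 * x.Γ ^ 5 * x.n ∧ x.Vx ≤ x.n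

/-- A phase with given parameters. -/
structure RunOK (E : Env β) (f : Pr → Arr ℕ → M (Arr ℕ)) : Prop where
  impl : Impl fun p : Pr × Arr ℕ => f p.1 p.2
  spec : ∀ (x : Pm) (mt : Arr ℕ), x.OK E → Mat x.A (pm x.n mt) → x.R = ex x.n mt →
    Vt x.b x.B (f x.toPr mt) fun o t =>
      (Gap x.n x.A mt x.K → Mat x.A (pm x.n o) ∧ ex x.n o + x.c ≤ x.R) ∧
      t ≤ 100 * x.Γ ^ 14 * (x.n + x.Vx + 1) + x.La * x.U * x.c

/-- **RUN.** -/
def RUN : Prop := ∀ (β : Type) [Rep β] (E : Env β), ∃ f, RunOK E f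

/-- The program for the parameters. -/
def parP (c q b K n : ℕ) (adj : Arr (List ℕ)) : M Pr :=
  num (2 * b + q) >>= fun b1 => num (c * P305BX.sq b1) >>= fun e => pow2 e >>= fun G =>
  pow2 (Nat.size n) >>= fun N => pow2 b1 >>= fun F => num (64 * G * (N / K)) >>= fun Q =>
  num (2048 * (G * G)) >>= fun x => num (8 * x * (N / K)) >>= fun Vm =>
  num (4 * (G * G * G * G * G) * Vm) >>= fun U => pure ⟨b1, n, adj, U, Q, F, K / x, Vm⟩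

theorem impl_parP (c q : ℕ) :
    Impl fun p : ℕ × ℕ × ℕ × Arr (List ℕ) => parP c q p.1 p.2.1 p.2.2.1 p.2.2.2 := by
  unfold parP
  fun_prop

/-- All inequalities, from a few basic facts. -/
theorem nums {G r k n F : ℕ} (hG : 1024 ≤ G) (hr : 1 ≤ r) (hk : 1 ≤ k)
    (h1 : n < r * (2048 * G ^ 2 * k)) (h2 : r * (2048 * G ^ 2 * k) ≤ 2 * n)
    (h3 : r * (2048 * G ^ 2 * k) * G ^ 16 ≤ F) :
    64 * G * r < F ∧ 64 * (2 * G * (64 * G * r) + 1) ≤ 8 * (2048 * (G * G)) * r ∧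
    4 * (2 * G * (64 * G * r) + 1) * k ≤ n ∧
    64 * (n + 4 * (2 * G * (64 * G * r) + 1) * k + 1) ≤ F ∧
    8 * (4 * (G * G * G * G * G) * (8 * (2048 * (G * G)) * r)) * k ≤ F ∧
    G * (16 * (n + 4 * (2 * G * (64 * G * r) + 1) * k + 1)) < F ∧
    8 * G ^ 5 * n ≤ 4 * (G * G * G * G * G) * (8 * (2048 * (G * G)) * r) * k ∧
    3 * k * (64 * G * r) + G * (16 * (n + 4 * (2 * G * (64 * G * r) + 1) * k + 1)) <
      2048 * G ^ 2 * k * (64 * G * r) ∧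
    4 * (G * G * G * G * G) * (8 * (2048 * (G * G)) * r) * k ≤ 64 * G ^ 5 * n := by
  obtain ⟨Y, hY⟩ : ∃ Y, Y = G ^ 2 * (r * k) := ⟨_, rfl⟩
  have e1 : r * (2048 * G ^ 2 * k) = 2048 * Y := by rw [hY]; ring
  rw [e1] at h1 h2 h3
  have a0 : 1 ≤ r * k := Nat.mul_pos hr hk
  have a1 : r ≤ r * k := Nat.le_mul_of_pos_right _ hk
  have a2 : k ≤ r * k := Nat.le_mul_of_pos_left _ hr
  have a3 : r * k ≤ Y := hY ▸ Nat.le_mul_of_pos_left _ (by positivity)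
  have a4 : 1 ≤ G * G * r := Nat.mul_pos (by positivity) hr
  have e2 : 4 * (2 * G * (64 * G * r) + 1) * k = 512 * Y + 4 * k := by rw [hY]; ring
  have e3 : 4 * (G * G * G * G * G) * (8 * (2048 * (G * G)) * r) * k = 65536 * (G ^ 5 * Y) := by
    rw [hY]; ring
  have e4 : 2048 * G ^ 2 * k * (64 * G * r) = 131072 * (G * Y) := by rw [hY]; ring
  have e5 : 3 * k * (64 * G * r) = 192 * (G * (r * k)) := by ring
  have b1 : G * (r * k) ≤ G * Y := Nat.mul_le_mul_left _ a3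
  have b2 : G * r ≤ G * Y := Nat.mul_le_mul_left _ (a1.trans a3)
  have b3 : Y ≤ G * Y := Nat.le_mul_of_pos_left _ (by omega)
  have b4 : G * Y ≤ G ^ 5 * Y := Nat.mul_le_mul_right _ (Nat.le_self_pow (by omega) _)
  have b5 : 2048 * (1024 * (G ^ 5 * Y)) ≤ F := by
    refine le_trans ?_ h3
    calc _ = 2048 * Y * (G ^ 5 * 1024) := by ring
      _ ≤ 2048 * Y * (G ^ 5 * G ^ 11) := by
        gcongr
        exact hG.trans (Nat.le_self_pow (by omega) _)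
      _ = _ := by ring
  have b6 : G * (16 * (n + (512 * Y + 4 * k) + 1)) ≤ G * (16 * (2600 * Y)) := by gcongr; omega
  have b7 : G ^ 5 * n ≤ G ^ 5 * (2048 * Y) := Nat.mul_le_mul_left _ h1.le
  have b8 : G ^ 5 * (2048 * Y) ≤ G ^ 5 * (2 * n) := Nat.mul_le_mul_left _ h2
  have b9 : 1 ≤ Y := a0.trans a3
  rw [e2, mul_assoc 8 (4 * _ * _), e3, e4, e5]
  refine ⟨?_, ?_, by omega, by omega, by omega, ?_, ?_, ?_, ?_⟩ <;> nlinarith

theorem par (E : Env β) : ∃ f c G, ParOK E f c G := by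
  have o1 : Ov E.gX := ⟨E.hX.sub, E.hX.mono⟩
  have o2 : Ov E.gN := ⟨E.hN.sub, E.hN.mono⟩
  have o3 : Ov E.gB := ⟨E.hB.sub, E.hB.mono⟩
  obtain ⟨c, q, G, hq, hG, h⟩ := ((((o1.add o2).add ((Ov.const 40).mul (o3.add (Ov.const 1)))).add
    Ov.id).add (Ov.const 1024)).param 32 2 2
  refine ⟨parP c q, (E.cX + E.cN + E.cB + 2) * (q + 2), G, impl_parP c q, hG, ?_⟩
  intro B b j n A adj R hA hn hB h3 hK
  obtain ⟨h2, h1, h4⟩ := h b
  obtain ⟨b1, hb1⟩ : ∃ b1, b1 = 2 * b + q := ⟨_, rfl⟩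
  have w : ∀ {y z : ℕ}, y ≤ E.cX + E.cN + E.cB + 2 → z ≤ b1 + 2 → 2 ^ (y * z) ≤ B :=
    fun hy hz => le_trans (Nat.pow_le_pow_right (by norm_num) (by
      rw [mul_assoc]; exact Nat.mul_le_mul hy (by nlinarith))) hB
  have hb2 : 2 * b + 2 ≤ b1 := by omega
  unfold parP
  rw [← hb1] at h1 h2 h4 ⊢
  obtain ⟨e, he⟩ : ∃ e, e = c * P305BX.sq b1 := ⟨_, rfl⟩
  rw [← he] at h1 h2 h4
  have h5 : 2 ^ 11 * (2 ^ e) ^ 2 ≤ 2 ^ j := le_trans (by gcongr) h3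
  have s1 := Nat.lt_size_self n
  have s2 := two_pow_size_le (show 1 ≤ n from Nat.one_le_two_pow.trans hK)
  have s3 : j < Nat.size n := Nat.lt_size.2 hK
  have s4 : Nat.size n ≤ b + 1 := Nat.size_le.2 (by rw [pow_succ]; omega)
  obtain ⟨i, hi⟩ : ∃ i, Nat.size n = i + j := ⟨Nat.size n - j, by omega⟩
  have s5 : 2 ^ Nat.size n / 2 ^ j = 2 ^ i := by
    rw [hi, pow_add, Nat.mul_div_cancel _ (by positivity)]
  have e1 : 10 ≤ e := (Nat.pow_le_pow_iff_right (by norm_num : 1 < 2)).1 (le_trans (by omega) h2)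
  have e2 : 11 + e * 2 ≤ j := by
    rw [← pow_mul, ← pow_add] at h5
    exact (Nat.pow_le_pow_iff_right (by norm_num : 1 < 2)).1 h5
  obtain ⟨l, hl⟩ : ∃ l, j = 11 + e * 2 + l := ⟨j - (11 + e * 2), by omega⟩
  have s6 : 2 ^ j = 2048 * (2 ^ e) ^ 2 * 2 ^ l := by rw [hl]; ring
  have s7 : 2 ^ j / (2048 * (2 ^ e * 2 ^ e)) = 2 ^ l := by
    rw [s6, pow_two, Nat.mul_div_cancel_left _ (by positivity)]
  have s8 : 2 ^ i * (2048 * (2 ^ e) ^ 2 * 2 ^ l) = 2 ^ Nat.size n := by rw [← s6, hi, pow_add]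
  have up : ∀ {y : ℕ}, y ≤ b1 → 2 ^ y ≤ B := fun h => by simpa using w (y := 1) (by omega) (by omega)
  have b3 : b1 < 2 ^ b1 := Nat.lt_two_pow_self
  have b4 := up le_rfl
  obtain ⟨n1, n2, n3, n4, n5, n6, n7, n8, n9⟩ := nums (G := 2 ^ e) (r := 2 ^ i) (k := 2 ^ l) (n := n)
    (F := 2 ^ b1) (by omega) Nat.one_le_two_pow Nat.one_le_two_pow (by omega) (by omega) (by
      rw [s8, ← pow_mul, ← pow_add]
      exact Nat.pow_le_pow_right (by norm_num) (by omega))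
  simp only [Tri_bind, Tri_num, Tri_pow2, Tri_pure, ← he, s5, s7]
  refine ⟨by omega, by omega, up (by omega), up (by omega), b4, ?_, ?_, ?_, ?_, trivial,
    ⟨_, A, B, 2 ^ e, 4 * (2 * 2 ^ e * (64 * 2 ^ e * 2 ^ i) + 1) * 2 ^ l, R, 2 ^ j⟩, rfl, ?_, rfl,
    rfl, rfl, rfl, rfl, by dsimp only; omega, h4, s6, n9, n3⟩
  · exact le_trans (le_of_eq (by ring)) (up (y := 6 + e + i) (by omega))
  · exact le_trans (le_of_eq (by ring)) (up (y := 11 + e * 2) (by omega))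
  · exact le_trans (le_of_eq (by ring)) (up (y := 14 + e * 2 + i) (by omega))
  · exact le_trans (le_of_eq (by ring)) (up (y := 16 + e * 7 + i) (by omega))
  · refine ⟨hA, by dsimp only; omega, by dsimp only; omega, w (by omega) (Nat.le_succ _),
      w (by omega) (Nat.le_succ _), w (by omega) (Nat.le_succ _), ?_, by dsimp only; omega,
      by dsimp only; omega, by dsimp only; omega, ⟨16 + e * 7 + i, by dsimp only; ring⟩,
      by dsimp only; positivity, n1, le_rfl, le_of_eq (by dsimp only [Pm.al]; ring), ?_, n2, le_rfl,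
      n4, Nat.one_le_two_pow, n5, n6, n7, s6 ▸ n8, n3⟩
    · have := w (y := 2) (z := b1 + 2) (by omega) le_rfl
      rwa [pow_mul] at this
    · dsimp only [Pm.al]
      nlinarith [Nat.zero_le ((2 ^ e) ^ 5 * (8 * (2048 * (2 ^ e * 2 ^ e)) * 2 ^ i))]

/-- The same with one overhead function. -/
theorem par' (E : Env β) : ∃ (pr : ℕ → ℕ → ℕ → Arr (List ℕ) → M Pr) (c : ℕ) (g : ℕ → ℕ),
    Impl (fun p : ℕ × ℕ × ℕ × Arr (List ℕ) => pr p.1 p.2.1 p.2.2.1 p.2.2.2) ∧ Ov g ∧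
    ∀ (B b j n : ℕ) (A : ℕ → ℕ → Prop) (adj : Arr (List ℕ)) (R : ℕ), Adj3 n A adj → n ≤ 2 ^ b →
      2 ^ (c * (b + 1)) ≤ B → g b ≤ 2 ^ j → 2 ^ j ≤ n →
      Tri ⟨B, true⟩ (pr b (2 ^ j) n adj) fun p t => ∃ x : Pm, x.toPr = p ∧ x.OK E ∧ x.A = A ∧
        x.B = B ∧ x.R = R ∧ x.K = 2 ^ j ∧ x.n = n ∧ b ≤ x.b ∧ x.Vx ≤ n ∧ 2 ^ j ≤ g b * x.c ∧
        x.U * x.c ≤ x.Γ ^ 8 * (n + 1) ∧ x.Γ ^ 24 ≤ g b ∧ t ≤ g b := by
  obtain ⟨f, c, G, h⟩ := par E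
  refine ⟨f, c, fun b => 2 ^ 11 * (G b + 1) ^ 24, h.impl,
    (Ov.const _).mul ((h.ov.add (Ov.const 1)).pow 24), fun B b j n A adj R h1 h2 h3 h4 h5 => ?_⟩
  have a : ∀ {y : ℕ}, y ≤ G b → y ^ 2 ≤ (G b + 1) ^ 24 := fun e =>
    (Nat.pow_le_pow_left (by omega) 2).trans (Nat.pow_le_pow_right (Nat.succ_pos _) (by omega))
  refine (h.spec B b j n A adj R h1 h2 h3 ((Nat.mul_le_mul_left _ (a le_rfl)).trans h4) h5).mono ?_
  rintro p t ⟨rfl, x, e1, e2, e3, e4, e5, e6, e7, e8, e9, e10, e11, e12⟩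
  refine ⟨x, e1, e2, e4, e5, e6, e7, e3, e8, e3 ▸ e12, ?_, e11.trans ?_, ?_, Nat.zero_le _⟩
  · rw [e10]
    exact Nat.mul_le_mul_right _ (Nat.mul_le_mul_left _ (a e9))
  · have := e2.big
    have k : 64 ≤ x.Γ ^ 3 := le_trans (by omega) (Nat.le_self_pow (by omega) _)
    calc _ ≤ x.Γ ^ 3 * x.Γ ^ 5 * (n + 1) := by gcongr; omega
      _ = _ := by ring
  · exact (Nat.pow_le_pow_left (by omega) 24).trans (Nat.le_mul_of_pos_left _ (by norm_num))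

end Vale.Agent.P305GM
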