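import Vale.Agent.P305GL.Basic
import Vale.Agent.P305GM.Par

/-!
# The main loop of a phase
-/

set_option linter.all false

namespace Vale.Agent.P305GM

open Vale.Agent.P305 Vale.Agent.P305E Vale.Agent.P305C Vale.Agent.P305LC Vale.Agent.P305N
  Vale.Agent.P305GH Vale.Agent.P305O Vale.Agent.P305GL Finset

/-- A loop whose invariant bounds the time. -/
theorem loopT {σ β : Type} {d B : ℕ} {F : σ → M (σ ⊕ β)} {Q : β → ℕ → Prop} (I : σ → ℕ → Prop)
    {N : ℕ} (hb : ∀ s t, I s t → t < N)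
    (hstep : ∀ s t, I s t → Vt d B (F s) fun r t' =>
      Sum.elim (fun s' => I s' (t + t' + 1)) (fun b => Q b (t + t')) r)
    {s : σ} (h0 : I s 0) : Vt d B (loopM F N s) Q := by
  have : ∀ n s t, I s t → N ≤ n + t → Vt d B (loopM F n s) fun b t' => Q b (t + t') := by
    intro n
    induction n with
    | zero => intro s t h h'; have := hb s t h; omega
    | succ n ih =>
      intro s t hI hn
      refine (hstep s t hI).bind fun r t' hr => ?_
      cases r with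
      | inl s' =>
        refine Vt.tick ((ih s' _ hr (by omega)).mono fun b t'' h => ?_)
        rwa [show t + (t' + (t'' + 1)) = t + t' + 1 + t'' by omega]
      | inr b => exact Vt.pure hr
  simpa using this N s 0 h0 (by omega)

variable {β : Type} [Rep β]

/-- One turn of the main loop. -/
def body (E : Env β) (stp : Pr → Fs β → ℕ → M (Fs β × Bool)) (fin : Pr → S → M (Arr ℕ)) (p : Pr)
    (mt : Arr ℕ) (q : Fs β × Option ℕ) : M ((Fs β × Option ℕ) ⊕ Arr ℕ) :=
  if q.1.1.cm = p.c then fin p q.1.1 >>= fun o => pure (.inr o) else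
    q.2.elim (E.X.next q.1.2.2 >>= fun r => r.1.elim (pure (.inr mt)) fun a =>
        pure (.inl ((q.1.1, q.1.2.1, r.2), some a)))
      fun a => stp p q.1 a >>= fun r => pure (.inl (r.1, if r.2 = true then some a else none))

/-- A phase with the parameters `p`. -/
def run (E : Env β) (ini : Pr → Arr ℕ → M (Fs β)) (stp : Pr → Fs β → ℕ → M (Fs β × Bool))
    (fin : Pr → S → M (Arr ℕ)) (fuel : ℕ) (p : Pr) (mt : Arr ℕ) : M (Arr ℕ) :=
  ini p mt >>= fun σ => loopM (body E stp fin p mt) fuel (σ, none)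

theorem impl_run {E : Env β} {ini : Pr → Arr ℕ → M (Fs β)} {stp : Pr → Fs β → ℕ → M (Fs β × Bool)}
    {fin : Pr → S → M (Arr ℕ)} (hi : InitOK E ini) (hs : StepOK E stp) (hf : FinalOK E fin)
    {α : Type} [Rep α] (fuel : α → ℕ) {p : α → Pr} {mt : α → Arr ℕ} (hp : Pure p) (hm : Pure mt) :
    Impl fun a => run E ini stp fin (fuel a) (p a) (mt a) := by
  unfold run body
  refine Impl.bind (hi.impl.comp (g := fun a => (p a, mt a)) (by fun_prop))
    (Impl.loopM (Impl.ite (by fun_prop) (Impl.bind (hf.impl.comp (g := fun a => (_, _))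
      (by fun_prop)) (by fun_prop)) (Impl.optElim (by fun_prop) (Impl.bind
        (E.hX.inext.comp (by fun_prop)) (by fun_prop))
        (Impl.bind (hs.impl.comp (g := fun a => (_, _, _)) (by fun_prop)) (by fun_prop))))
      (by fun_prop))

/-- The invariant of the main loop. -/
def LI (E : Env β) (x : Pm) (T : ℕ) (q : Fs β × Option ℕ) (t : ℕ) : Prop :=
  ∃ g φ, Good E x q.1 g q.2 φ ∧
    t + φ + (3 * x.La * x.Γ + x.Γ + 2) * (4 * (x.n + x.Vx + 1) - g.H.G.scn.card) +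
      (if q.2.isSome = true then 3 * x.La * x.Γ + 1 else 0) ≤ T

theorem body_vt {E : Env β} {stp : Pr → Fs β → ℕ → M (Fs β × Bool)} {fin : Pr → S → M (Arr ℕ)}
    (hs : StepOK E stp) (hf : FinalOK E fin) (hst : STALL) {x : Pm} (hx : x.OK E) {mt : Arr ℕ}
    (hR : x.R = ex x.n mt) {T : ℕ} (q : Fs β × Option ℕ) (t : ℕ) (h : LI E x T q t) :
    Vt x.b x.B (body E stp fin x.toPr mt q) fun r t' => Sum.elim (fun q' => LI E x T q' (t + t' + 1))
      (fun o => (Gap x.n x.A mt x.K → Mat x.A (pm x.n o) ∧ ex x.n o + x.c ≤ x.R) ∧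
        t + t' ≤ T + x.Γ ^ 2 * (x.n + x.Vx + 1)) r := by
  obtain ⟨σ, cur⟩ := q
  obtain ⟨g, φ, hg, ht⟩ := h
  dsimp only at hg ht
  have hΓ := hx.big
  unfold body
  refine Vt.ite (fun e => ?_) fun e => ?_
  · refine (hf.spec x σ g cur φ hx hg e).bind fun o t' ho => Vt.pure ⟨fun _ => ⟨ho.1, ho.2.1⟩, ?_⟩
    have h1 := ho.2.2
    have h2 : x.Γ ^ 2 * (x.n + 1) ≤ x.Γ ^ 2 * (x.n + x.Vx + 1) := Nat.mul_le_mul_left _ (by omega)
    omega
  have hc : σ.1.cm < x.c := lt_of_le_of_ne hg.core.cm e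
  cases cur with
  | some a =>
    simp only [Option.elim, Option.isSome_some, if_true] at ht ⊢
    refine (hs.spec x σ g φ a hx hg hc).bind ?_
    rintro ⟨σ', z⟩ t' ⟨g', φ', h1, h2⟩
    cases z with
    | true =>
      simp only [if_true] at h2
      refine Vt.pure ⟨g', φ', h2.1, ?_⟩
      have := h2.2
      simp only [if_true, Option.isSome_some, h1]
      omega
    | false =>
      simp only [Bool.false_eq_true, if_false] at h2
      refine Vt.pure ⟨g', φ', h2.1, ?_⟩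
      have := h2.2
      simp only [Bool.false_eq_true, if_false, Option.isSome_none, h1]
      omega
  | none =>
    simp only [Option.elim, Option.isSome_none, Bool.false_eq_true, if_false] at ht ⊢
    obtain ⟨φb, hb, hφ⟩ := hg.box
    have hV := hg.core.card_V hx
    have hsz : g.H.G.size < 2 ^ x.b := by
      have := hg.core.gh.size_le.1
      have := hx.sz
      omega
    have hgx := hx.gX
    refine (E.hX.next x.B x.b 1 g.H.G σ.2.2 φb hb hsz).bind ?_
    rintro ⟨o, bx⟩ t' hr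
    cases o with
    | none =>
      simp only [Option.elim] at hr ⊢
      refine Vt.pure ⟨fun ⟨m, h1, h2⟩ => ?_, ?_⟩
      · have := hst β E x σ g φ _ hx hg hgx hr.1 m h1
        omega
      · have h1 := hr.2
        have h2 : x.Γ ≤ x.Γ ^ 2 * (x.n + x.Vx + 1) := by nlinarith [Nat.zero_le (x.Γ ^ 2 * (x.n + x.Vx))]
        omega
    | some a =>
      simp only [Option.elim] at hr ⊢
      obtain ⟨h1, h2, h3, φb', h4, h5⟩ := hr
      have hcore := hg.core.scan h1 h2 fun X =>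
        (h3 X).trans (Nat.mul_le_mul_right _ hgx)
      refine Vt.pure ⟨{ g with H := g.H.scan a }, _, ⟨hcore, hg.lev, φb', h4, rfl⟩, ?_⟩
      have h6 : (g.H.scan a).G.scn.card = g.H.G.scn.card + 1 := card_insert_of_notMem h2
      have h7 : (g.H.scan a).G.scn.card ≤ 4 * (x.n + x.Vx + 1) :=
        (card_le_card fun v hv => hcore.gh.slotV (hcore.gh.scn hv)).trans hV
      obtain ⟨k, hk⟩ : ∃ k, 4 * (x.n + x.Vx + 1) = g.H.G.scn.card + 1 + k := ⟨_, (Nat.add_sub_cancel' (h6 ▸ h7)).symm⟩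
      simp only [Option.isSome_some, if_true, h6]
      rw [hk] at ht ⊢
      rw [show g.H.G.scn.card + 1 + k - g.H.G.scn.card = k + 1 by omega, mul_add, mul_one] at ht
      rw [show g.H.G.scn.card + 1 + k - (g.H.G.scn.card + 1) = k by omega]
      omega

theorem run_vt {E : Env β} {ini : Pr → Arr ℕ → M (Fs β)} {stp : Pr → Fs β → ℕ → M (Fs β × Bool)}
    {fin : Pr → S → M (Arr ℕ)} (hi : InitOK E ini) (hs : StepOK E stp) (hf : FinalOK E fin)
    (hst : STALL) {x : Pm} (hx : x.OK E) {mt : Arr ℕ} (hm : Mat x.A (pm x.n mt))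
    (hR : x.R = ex x.n mt) {fuel : ℕ}
    (hfu : 100 * x.Γ ^ 13 * (x.n + x.Vx + 1) + x.La * x.U * x.c < fuel) :
    Vt x.b x.B (run E ini stp fin fuel x.toPr mt) fun o t =>
      (Gap x.n x.A mt x.K → Mat x.A (pm x.n o) ∧ ex x.n o + x.c ≤ x.R) ∧
        t ≤ 100 * x.Γ ^ 13 * (x.n + x.Vx + 1) + x.La * x.U * x.c := by
  have hΓ := hx.big
  have e1 : x.La * x.Γ = x.Γ ^ 13 := by unfold Pm.La; ring
  have e2 : x.Γ ≤ x.Γ ^ 13 := Nat.le_self_pow (by norm_num) _
  have e3 : x.Γ ^ 2 ≤ x.Γ ^ 13 := Nat.pow_le_pow_right (by omega) (by norm_num)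
  unfold run
  refine (hi.spec x mt hx hm hR).bind ?_
  rintro σ t ⟨g, φ, hg, -, ht⟩
  have e4 : (3 * x.La * x.Γ + x.Γ + 2) * (4 * (x.n + x.Vx + 1)) ≤
      24 * (x.Γ ^ 13 * (x.n + x.Vx + 1)) := by
    rw [mul_assoc 3, e1]
    calc _ ≤ (6 * x.Γ ^ 13) * (4 * (x.n + x.Vx + 1)) := Nat.mul_le_mul_right _ (by omega)
      _ = _ := by ring
  have e5 : 2 * x.La * x.Γ * (x.n + 1) ≤ 2 * (x.Γ ^ 13 * (x.n + x.Vx + 1)) := by
    rw [mul_assoc 2, e1, mul_assoc]
    exact Nat.mul_le_mul_left _ (Nat.mul_le_mul_left _ (by omega))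
  have e6 := Nat.mul_le_mul_right (x.n + x.Vx + 1) e3
  rw [mul_assoc 100] at hfu ⊢
  refine (loopT (Q := fun o t => (Gap x.n x.A mt x.K → Mat x.A (pm x.n o) ∧ ex x.n o + x.c ≤ x.R) ∧
      t ≤ φ + 24 * (x.Γ ^ 13 * (x.n + x.Vx + 1)) + x.Γ ^ 2 * (x.n + x.Vx + 1))
    (LI E x (φ + 24 * (x.Γ ^ 13 * (x.n + x.Vx + 1)))) ?_ (body_vt hs hf hst hx hR)
    ⟨g, φ, hg, ?_⟩).mono fun o t' ho => ⟨ho.1, ?_⟩
  · rintro q t' ⟨g', φ', -, h⟩
    omega
  · have := Nat.mul_le_mul_left (3 * x.La * x.Γ + x.Γ + 2)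
      (Nat.sub_le (4 * (x.n + x.Vx + 1)) g.H.G.scn.card)
    simp only [Option.isSome_none, Bool.false_eq_true, if_false]
    omega
  · have := ho.2
    omega

/-- **The main loop.** -/
theorem run_ok (h1 : INIT) (h2 : STEP) (h3 : FINAL) (h4 : STALL) : RUN := by
  intro β _ E
  obtain ⟨ini, hi⟩ := h1 β E
  obtain ⟨stp, hs⟩ := h2 β E
  obtain ⟨fin, hf⟩ := h3 β E
  refine ⟨fun p mt => run E ini stp fin (100 * p.F ^ 13 * p.F + p.F ^ 12 * p.U * p.c + 1) p mt,
    impl_run hi hs hf _ (by fun_prop) (by fun_prop), fun x mt hx hm hR => ?_⟩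
  have hΓ := hx.big
  have a := hx.inf
  have a1 : x.Γ ≤ x.F := le_trans (Nat.le_mul_of_pos_right _ (by omega)) a.le
  have a2 : x.n + x.Vx + 1 ≤ x.F :=
    le_trans (le_trans (by omega) (Nat.le_mul_of_pos_left _ (by omega : 0 < x.Γ))) a.le
  refine (run_vt hi hs hf h4 hx hm hR (Nat.lt_succ_of_le ?_)).mono fun o t h => ⟨h.1, h.2.trans ?_⟩
  · unfold Pm.La
    gcongr
  · gcongr <;> omega

end Vale.Agent.P305GM
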