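import Vale.Agent.P305GM.Par
import Vale.Agent.P305BL.Bm

/-!
# From a phase with given parameters to the interface of the shell
-/

namespace Vale.Agent.P305GM

open Vale.Agent.P305 Vale.Agent.P305E Vale.Agent.P305C Vale.Agent.P305O Vale.Agent.P305GL

theorem phase_of_run (h : RUN) (hX : P305LC.BOX False) (hN : P305N.NET) :
    ∃ ph c g, PhaseOK ph c g fun b n _ => (n + 1) * g b := by
  obtain ⟨β, _, X, cX, gX, I, hX⟩ := hX
  obtain ⟨N, cN, gN, hN⟩ := hN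
  obtain ⟨bm, cB, gB, hB⟩ := P305BL.exists_bm
  obtain ⟨E, -⟩ : ∃ E : Env β, E = ⟨X, N, bm, cX, cN, cB, gX, gN, gB, I, hX, hN, hB⟩ := ⟨_, rfl⟩
  obtain ⟨f, hf⟩ := h β E
  obtain ⟨pr, c, g, h1, h2, h3⟩ := par' E
  refine ⟨fun b K n adj mt => pr b K n adj >>= fun p => f p mt, c, fun b => 300 * g b, ?_,
    ((Ov.const 300).mul h2).sub, ?_⟩
  · exact Impl.bind (h1.comp (g := fun p : ℕ × ℕ × ℕ × Arr (List ℕ) × Arr ℕ =>
      (p.1, p.2.1, p.2.2.1, p.2.2.2.1)) (by fun_prop))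
      (hf.impl.comp (g := fun p : (ℕ × ℕ × ℕ × Arr (List ℕ) × Arr ℕ) × Pr => (p.2, p.1.2.2.2.2))
        (by fun_prop))
  · intro B b j n A adj mt k1 k2 k3 k4 k5 k6
    refine Vt.tbind (h3 B b j n A adj (ex n mt) k1 k3 k4 (by omega) k6) ?_
    rintro p t ⟨x, rfl, e2, rfl, rfl, e5, e6, rfl, e8, e9, e10, e11, e12, e13⟩
    refine ((hf.spec x mt e2 k2 e5).anti e8).mono fun o s ⟨a1, a2⟩ => ⟨fun a3 => ?_, ?_⟩
    · obtain ⟨a4, a5⟩ := a1 (e6 ▸ a3)
      refine ⟨a4, ?_⟩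
      rw [← e5]
      have := Nat.mul_le_mul_left (300 * g b) a5
      nlinarith
    · have p1 : 1 ≤ x.Γ := le_trans (by norm_num) e2.big
      have p2 : x.Γ ^ 14 ≤ g b := (Nat.pow_le_pow_right p1 (by norm_num)).trans e12
      have p3 : x.La * x.U * x.c ≤ g b * (x.n + 1) := by
        calc _ = x.Γ ^ 12 * (x.U * x.c) := by rw [Pm.La, mul_assoc]
          _ ≤ x.Γ ^ 12 * (x.Γ ^ 8 * (x.n + 1)) := Nat.mul_le_mul_left _ e11
          _ = x.Γ ^ 20 * (x.n + 1) := by ring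
          _ ≤ _ := Nat.mul_le_mul_right _ ((Nat.pow_le_pow_right p1 (by norm_num)).trans e12)
      have p4 : 100 * x.Γ ^ 14 * (x.n + x.Vx + 1) ≤ 100 * g b * (2 * (x.n + 1)) := by
        gcongr
        omega
      nlinarith [Nat.zero_le (g b * x.n)]

end Vale.Agent.P305GM
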